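/-!
# R87 (S0115): the paper proof.  Statements: `Defs.lean`, `Defs2.lean`.

Final assembly: `result := outer (core forest l2 (tail l2 ker (s1 t4 wb) s2))`.
Notation: `z = (x,y)`, `l = 2^k`, `I_k(x)` dyadic, `κ = 1/(100 2^kmax)`; a *term* is a pair `(z,k)`,
`T_{z,k}(z') = g z * ker k z z'`.  BILIP: for `|x-x'| ≤ 2^kmax` the map `y ↦ y - (x-x') u(x,y)` is
expanding by `99/100`, so `|{y : |c - y + (x-x')u(x,y)| ≤ h}| ≤ 3h`; `ker k z z' ≠ 0` forces
`dI k x' = dI k x`; hence `|Phi1 k A g z'| ≤ 3 ‖b‖ ‖ψ‖` for every scale (API file `Api.lean`).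
DOWN: `near ρ z k P`, `idx k (u z) = idx k s`, `2^k |u z - s| ≤ ρ` are downward closed in `k`.
ASSIGN: if `T` is a `Fam`, `N P k` (`P ∈ U`) measurable, downward closed in `k`, covering `T`, order
`U` and put `S P k = T k ∩ N P k \ ⋃_{Q < P} N Q k`: each `S P` is a `Fam`, disjoint, union `T`.

## O. Outer reduction (`CoreStmt → S0115`)
A. Cover the plane by squares of side ~a (bounded overlap of the enlarged squares; the operator is
local); on one square `v` is almost constant, swap coordinates so that `|v1| ≥ 1/2`, `u = v2/v1` composed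
with the clamp to the square.  Reparametrise `t ↦ t v1(z)`: the change of the cut-offs and the sharp
cut-offs cost single scale averages, bounded on `L²` because `y ↦ y - t u(x,y)` is bi-Lipschitz.
B. `B` odd bump in `[-1/2,1/2]`, `b = B'`; averaging `∑_k 2^-k h_k(x) b((x'-c_k(x))/2^k)` over
translations and dilations of the grid gives `c/(x-x')` cut smoothly at the two ends.
C. Calderon formula in `y` with `ψ = Ψ^(M)` compactly supported: `f = ∫ ψ_w * ψ_w * f dw/w`; commutators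
`[ψ_v, A_t] ψ_w` are `O(|t| κ)` with Schur decay in `v/w` (plus one Carleson embedding); main terms are
single bands; rescale `y` by `w`, `x` by `r w`; scales `l < 1`: replace `u` by `0` (error `O(l)`),
the rest is a Haar shift in `x`.
D. two restricted estimates with major subsets give the `L²` bound (iterate `G'`, level sets, Schur).

## F. Forest (`ForestStmt`)
`dens P = |pop P| / len P ≤ 1`.  `D j = {P : k ≤ kmax, dens ≥ 2^-j}` is finite.
`rel P Q : P.k < Q.k, I_P ⊆ I_Q, 2^{P.k}|s_P - s_Q| ≤ 10, |line_P a_P - line_Q a_P| ≤ 10`.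
TOPS (abstract): finite set, level function, relation: there is `Top` with (1) every element is in
`Top` or `rel` to a higher element of `Top`, (2) no `rel` inside `Top` (recursion from the top level).
`Uall j = Top (D j)`.  The sets `pop P`, `P ∈ Uall j`, are disjoint (a common point gives `rel`), so
`totL ≤ 2^j |G|`.  `φ i = 64 * 2^(i/16)`, `Cov j = {(z,k) : ∃ j0 ≤ j, P ∈ Uall j0, near (φ (j-j0)) z k P}`,
`T j j0 = (near some P ∈ Uall j0 at radius φ(j-j0)) \ Cov (j-1) \ (same with j0' < j0)`, intersected with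
`G'`.  Finitely many tiles meet `G`, so a.e. term is in `Cov J`.  Density: if `near ρ z k P` and
`dens P ≥ 2^-j'`, `j' < j`, a top `Q` has `near (ρ+20) z k Q`, so `ρ+20 > φ(j-1-j')`, `2^(j-1-j') < ρ^16`.
Counting.  `N = cnt (Uall j0) 1`, `Mv N (x,y) = sup_{H ≥ 1} (2H)⁻¹ ∫_{y-H}^{y+H} N(x,.)`, `λ_j = C 8^j`.
`P` is bad if `Mv N (x, line_P x) ≥ λ_j` for all `x ∈ I_P`; `U j j0` = good tops; remove from `G` the sets
`{Mv N ≥ λ_j / (2 φ(j-j0))}` (weak (1,1) in `y`), total measure `≤ |G|/2`; terms of `G'` are near good tops only.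
`∫ N² ≤ 2 ∑_P ∑_{R, len R ≤ len P} |R ∩ P|` over good tops.  Fix `P`; either `len R |s_R - s_P| ≤ 8` (then the
same length, `O(1)` tiles) or `θ = |s_R - s_P| ∈ [2^i, 2^(i+1))`, `θ len R > 8`, `|R ∩ P| ≤ 8/θ`; for
`z ∈ pop R`, `|u(x, line_P x) - s_P| ∈ [.85θ, 1.15θ]` (Lipschitz), so `I_R` has density `≥ 2^-j0` in
`Y_i = {x : |u(x,line_P x) - s_P| ∈ [2^(i-1), 2^(i+2)]}`, overlap of the `Y_i` at most 4.  `I_R ⊆` a maximal
interval `Q` of density `≥ 2^-j0` of `Y_i`, `∑|Q| ≤ 2^j0 |Y_i|`.  In `Q`: let `V` be an interval containing some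
`I_{R°}` (class `i`, good).  The class `i` tubes with `I_R ⊇ V` that cross `P` over `V` stay in the window
`C 2^i |V|` around `P` over `V`; those strictly longer than `R°` are at most `C λ 2^i |V|` (else `R°` is bad), those
of length `|V|` at most `C 2^(j0) 2^i |V|` (disjoint `pop`).  Induction on the dyadic tree as in `LTStmt`:
`∑_{R ⊆ Q} |R ∩ P| ≤ C (λ + 2^j0) |Q|`.

## L. Tree lemma (`T4Stmt`), on the line `y = β + s x`
`v = 2^k |u z - s|`.  Core `v ≤ 1` (a `Fam`): `ψ(y'-y+(x-x')u) = ψ(β-(y-sx)) + O(v 1[|y-sx-β| ≤ 2])`; main part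
`b_I(x') alpha`, `CoefStmt` (d = 2) and `BMaxStmt`; error `pcoef` with `w k = v 1[v ≤ 1]`, `PosStmt`, `Car4Stmt`.
Side `2^(q-1) < v ≤ 2^q`, `1 ≤ q ≤ p` (one scale per point): scales `k < q` trivially; for `k ≥ q` majorise by
`c (k-q) J = 2^-k |{z : x ∈ I_k(J), v ~ 2^q, |β + s x_J - y + (x - x_J) u| ≤ 2}|` (`x_J` left end of `J`, `|J| = 2^(k-q)`).
Carleson constant `C (1+q)`: for `2^k ≤ |J1|` each `z` is counted for at most 9 intervals `J` (steps `> 1/2`) and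
`|y - sx - β| ≤ 2^q + 2`; the `q` longer scales by BILIP.  `Car4Stmt`.

## I. `L²` gain (`L2Stmt`), `δ = 2^-j`
ASSIGN the terms to the tops.  `‖Φ‖² = ∑_P ∑_{ι=0,1} ∑_{k+ι ≤ k''} <Φ_k, Φ_{P,k''}>`.  Fix `P`, `s = s_P`, lines
`β ∈ B_P` (length `≤ 4ϑ+2`), only `x ∈ I_P` matters.  Short terms: `C` (`v ≤ 1`) = main + err, `D_q`; long terms:
`C''` = main'' + err'', `D''_q''`, `2^(q''-1) ≤ ϑ`.  `LineDens` holds with `(h,ρ) = (2^q+2, 2^q)`,
`d_q = C δ 2^(18 q)` (cover by `C 4^q` tiles at distance `≤ 10 2^q` from a term, `Forest.dens`), and trivially with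
`d = 2h`.  (1) main x main'': Schur, `|∫ b_I b_I''| ≤ C |I| 2^(k-k'')`.  (2) main x (err''+D''): `∫ main* P''`.
(3) err x anything: `∫ P_0 (main''* + P'')`.  (4),(5) `D_q` with `q ≤ q0 = j/76`: `∫ P_q (main''* + P'')` (positive
majorants `pcoef` with height `2^q+2`).  `q > q0`: DECAY: `β̃` supported in `I`, `|β̃^(i)| ≤ A l^-i`, `ξ = Ξ^(M)`:
`|∫ β̃(x') ξ(γ - θ x') dx'| ≤ A ‖Ξ‖ (θ l)^-M l`; against main'' freeze the long sum at the left end of `I`
(the differences `b_I'' - b_I''(a_I)` are `O(2^(k-k''))` in `C^M`); against err'' and `D''` termwise with `ψ ⋆ ψ`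
(err'' is an integral over `τ` of terms of slope `s + τ(u''-s)` and kernel `ψ'`) when `2^k |u-u''| ≥ 2^(q-2)`: total
`C 2^(-q(M-3)) ϑ³ |I_P|`; otherwise `|k''-k-(q''-q)| ≤ 2`, and `sup |Φ_k[D_q]|^abs ≤ C δ 2^q` (unit tiles have
density `≤ 4δ`).  Sum: `δ² 2^(19 q0) ϑ^20 2^j0 ≤ C δ^(1/2)`, and `2^(-q0 (M-3)) ϑ³ 2^j0 ≤ C δ^(1/2)`, `M = 150`.

## W. Weighted inequality (`WBStmt`)
BELL: `φ(w,P) = 2√w + 3P - P²/√w` on `0 ≤ P ≤ √w` (`φ(0,0)=0`): increasing in `w`, `φ(w,P) - φ(w,P-p) ≥ p`, and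
`(S+d)² φ' ≤ S² φ + 2 S d φ + S² ∇φ·(w'-w, P'-P) + d² (32 √w + 22 √w')`; with `x=√w, r=P/x`: the gap is
`≥ (x-x')²/x + x'(r'-r)²` and `(φ'-φ)² ≤ 32 (x-x')² + 18 x'² (r'-r)²`.
ROTA (1D): `ρ_j` symmetric probabilities, `μ_j = ρ_{j0+1} * .. * ρ_j`, `Y_J = 0`, `Y_{j-1} = ρ_j * Y_j + G_j - ρ_j*ρ_j*G_j`,
`q_j, w_j ≥ 0`, `Q_j = ∑_{l ≤ j} q_l`, `W_j = ∑_{l ≤ j} w_l`, `Q_j² ≤ W_j`.  Then
`∑_j ∫ (μ_j*Y_j)² q_j ≤ ∑_j ∫∫ |G_j(x+t) - ρ_j*G_j(x)|² (32 √(μ_j*W_{j-1})(x) + 22 √(μ_{j-1}*W_{j-1})(x+t)) dρ_j(t) dx`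
(potential `∫ Y_j² φ(μ_j*W_j, μ_j*Q_j)`; Jensen in `Y`, BELL, the linear terms integrate to zero).
`ρ_j` uniform on `[-h_j, h_j]`, `h_j = 2^j/(8 lam0)`, `j0 = -3`, `J = n + c'`, `2^c' ~ R`.  Replace `f c` by `f c 1_{N c}`.
`F = ∑_j μ_{j-1}(1 - ρ_j²) μ_{j-1} F + μ_J² F`.  For fixed `i` apply ROTA to `G_{c+i} = μ_{c+i-1} * F_c`
(harvest `√(v a)/√m0` at level `thr a + i - 1`); `G(x+t) - ρG(x) = ∫ k_t f`, `‖k_t‖₁ ≤ ε_i = C A min(2^i, 4^-i)`
(`Y'''` for `i ≤ 0`, second differences of `Y` for `i ≥ 1`); Jensen.  Sum over `i` by the triangle inequality,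
`i ≤ c'` gives `κ c` (convex combination), `i > c'` and `μ_J² F` give the term `√B / R⁴`.  Fubini over the lines.

## K. Kernels (`KerStmt`)
`Λ` = inverse Fourier transform of an even bump `= 1` on `[-1,1]`, `= 0` off `[-2,2]`; `Λ_α * Λ_β = Λ_α` if `β ≥ 2α`.
`χ = Λ_16 - Λ_{1/2}` is even with mean zero, `X2` its decaying second primitive, `Y = X2 · cut(t/R)` (even cut).
`χ_μ * (Λ_{2^(i+1)} - Λ_{2^i}) = Λ_{2^(i+1)} - Λ_{2^i}` for `μ ∈ [2^i/4, 2^i]`.

## S2. Perfect trees are rare (`S2Stmt`)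
(a) `Perf (2D) ν` gives a separated tree of depth `D`: children `A0, A1`, sizes `≤ |ν|/4`, gap `≥ |A0|+|A1|` (left half of the
smallest node containing the two grandchildren below the left child, right half for the right child).
(b) `Y_ν = {x ∈ I_kmax(x0) : u(x, y0 + lft ν (x-x0)) ∈ ν enlarged by |ν|/4 on both sides}`, `ρ(ν,k)` = density of `Y_ν` in
`I_k(x0)`; `Y_A ⊆ Y_ν`, `Y_A0 ∩ Y_A1 = ∅`, `ρ(leaf, k_P) ≥ 2^-j0` for the member `P` of the leaf.
(c) Descent: state (node, set `S` of leaves, window `[ke, kw]` containing their times, phase `i` with `ρ(node,k) ≤ (1-η)^i` on the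
window).  `d_a` = smallest `k` in the window with `ρ(A_a,k) > (1-η)^(i+1)`; late leaves: time `< d_a` (all if there is no `d_a`).
C: some child has `≥ |S|/8` late leaves: take them, `kw = d_a - 1`, `i+1`.  Else if both `d_a` exist, `d_0 > d_1` say, and child 0 has
`≥ |S|/8` early leaves: G: take them, `ke = d_0`, record the event `(d_1, A_1, i)`.  Else N: a child has `≥ 5|S|/8` early leaves.
Relative mass `|S|/2^(depth left)` is multiplied by `≥ 1/4, 1/4, 5/4` and stays `≤ 1`; `i < N`; so `#G ≥ 22 N`.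
(d) Final member `P`, `U x = u(x, line_P x)`.  For a level `m` and `I ⊆ I_P`: `Z_I` = union over the nodes `ν ∋ s_P` (cut `≤ k_P`) for
which `{U ∈ ν enlarged by |ν|/5}` has density `≤ m` in all `I' ∈ [I, I_P]` of these sets; decreasing in `I`, density `≤ m` in `I`.
Class `C_j = {2^j ≤ |U - s_P| < 2^(j+3)}`; `(I,j)` dominant if `|C_j ∩ Z_I ∩ I| > (1-η) m |I|`.  An event with
`D = dist(s_P, A)` gives a dominant pair with `j = ⌊log2 (.72 D)⌋`; events 5 levels apart have `|j-j'| ≥ 6`.  A *reversal* of level `m`: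
`I ⊋ I'` dominant with `|j-j'| ≥ 6`.  `x0` lies in a chain `I_1 ⊋ I_1' ⊇ I_2 ⊋ I_2' ..` of `N` reversals with monotone levels.
For a fixed sequence of levels the measure is `≤ (η/(1-η))^N |I_P|` (take the maximal dominant intervals `I0`, with a class `j0`; one of
`I_1, I_1'` has a class disjoint from `C_j0`, so `I_1'` lies in a subinterval of `I0` where `Z_I0 \ C_j0` has density `> (1-η)m`, while
its density in `I0` is `≤ ηm`); at most `4^N` sequences.

## S1. Recursion on the rank (`T4Stmt → WBStmt → S1Stmt`): owner helper91, files `S1*.lean`.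

## A. Assembly
`tail : L2Stmt → KerStmt → S1Stmt → S2Stmt → TailStmt`.  `2^(200ι) ≤ τ < 2^(200(ι+1))`, `R = 2^(78ι)`, bands `i ∈ [-ι, ι)`,
`H = 2^(79ι)`, `kL = 79ι+3`, `t0 = 2ϑ+1+H`, `kK = 600ι`, `n = 2^(300ι)`, `r = 340N+170` with `(C A²)^(r+2) ≤ 2^ι`, `η` a small
constant with `(8η)^N ≤ 2^(-485ι)`.  Split `T = TA ∪ TB`: `TA` = terms near a top with the same `idx` for `s0 = 0` (DOWN), ASSIGN; for
`TB` any ASSIGN is compatible with `s0 = 2^kK/3`.  `Φ = Λ_{2^-ι}*Φ + ∑_i (band + tail) * Φ + (Φ - Λ_{2^ι}*Φ)`: low, high and tails by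
`L2Stmt` (for `m-1, m+1, m`; note `TA`, `TB` are forests) and Chebyshev.  For a band: `E = {|band * Φ| > τ'}` minus the `Perf` set (S2), the
ends `{vis r P, x ∉ I_P}`, and `{cnt U (tt r) > n}` (`cnt U ρ ≤` sum of `ρ+1` vertical translates of `cnt U 1`).
`core : ForestStmt → L2Stmt → TailStmt → CoreStmt`.  `r = |F|/|G| ≤ 1`: for `C 2^(Dj) ≤ τ = r^(-a)`, `a = 1/(2+1/200)`:
`∫_F |Φ| ≤ τ|F| + ‖Φ‖₂ |{|Φ|>τ}|^(1/2)`; other `j` by Cauchy-Schwarz and `(3/4)^j`.  `r ≥ 1`: `Φ_{j,j0}` is supported in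
the tubes of radius `2ϑ+1`, measure `≤ C 4^j |G|`.
-/
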